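import Vale.Agent.P310.WLDefs

/-!
# P310: random access machines

A random access machine has registers `R 0, R 1, …` holding natural numbers, indirect addressing,
random access to the (read-only) input word, and a finite program. Three standard models: the
unit-cost RAM, the logarithmic-cost RAM and the word RAM.
-/

namespace Vale.Agent.P310Z

open Turing Vale.Agent.P310

/-- binary operations -/
inductive Op : Type
  | add | sub | mul | div | mod | land | lor | xor | shl | shr | lt

/-- Instructions. `const i a`: `R i := a`; `op o i j l`: `R i := o (R j) (R l)`;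
`load i j`: `R i := R (R j)`; `store i j`: `R (R i) := R j`; `read i j`: `R i :=` the input bit
number `R j`; `jz i l`: go to line `l` if `R i = 0`; `goto l`: go to line `l`. -/
inductive Instr : Type
  | const (i a : ℕ)
  | op (o : Op) (i j l : ℕ)
  | load (i j : ℕ)
  | store (i j : ℕ)
  | read (i j : ℕ)
  | jz (i l : ℕ)
  | goto (l : ℕ)

/-- The three models: unit cost, logarithmic cost, and the word RAM whose words have
`C * (number of bits of n)` bits. -/
inductive Model : Type
  | unit
  | log
  | word (C : ℕ)

/-- All results are reduced modulo this number: `2 ^ w` for words of `w` bits; `0` (no reduction,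
`a % 0 = a`) if the registers are unbounded. -/
def Model.modulus : Model → ℕ → ℕ
  | .word C, n => 2 ^ (C * Nat.size n)
  | _, _ => 0

/-- The instruction sets: the unit-cost RAM has no multiplication and no left shift, the
logarithmic-cost RAM has no left shift, the word RAM has all instructions. -/
def Model.Allows : Model → Instr → Prop
  | .unit, .op o _ _ _ => o ≠ .mul ∧ o ≠ .shl
  | .log, .op o _ _ _ => o ≠ .shl
  | _, _ => True

/-- The operations, before the reduction modulo `m`. Subtraction is truncated at `0` if `m = 0`
and cyclic if `m = 2 ^ w`. -/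
def Op.eval (m : ℕ) : Op → ℕ → ℕ → ℕ
  | .add, a, b => a + b
  | .sub, a, b => a + m - b
  | .mul, a, b => a * b
  | .div, a, b => a / b
  | .mod, a, b => a % b
  | .land, a, b => a &&& b
  | .lor, a, b => a ||| b
  | .xor, a, b => a ^^^ b
  | .shl, a, b => a <<< b
  | .shr, a, b => a >>> b
  | .lt, a, b => if a < b then 1 else 0

/-- the input bit number `a` (`2` beyond the end of the input) -/
def inputAt (x : List Bool) (a : ℕ) : ℕ :=
  match x[a]? with
  | some b => b.toNat
  | none => 2

/-- the numbers an instruction reads -/
def Instr.operands (R : ℕ → ℕ) : Instr → List ℕ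
  | .const _ a => [a]
  | .op _ _ j l => [R j, R l]
  | .load _ j => [R j, R (R j)]
  | .store i j => [R i, R j]
  | .read _ j => [R j]
  | .jz i _ => [R i]
  | .goto _ => []

/-- The cost of an instruction: `1`, plus, for logarithmic cost, the number of bits read. -/
def Model.cost : Model → (ℕ → ℕ) → Instr → ℕ
  | .log, R, a => 1 + ((a.operands R).map Nat.size).sum
  | _, _, _ => 1

/-- the registers after an instruction (`m`: the modulus, `x`: the input word) -/
def Instr.regs (m : ℕ) (x : List Bool) (R : ℕ → ℕ) : Instr → ℕ → ℕ
  | .const i a => Function.update R i (a % m)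
  | .op o i j l => Function.update R i (o.eval m (R j) (R l) % m)
  | .load i j => Function.update R i (R (R j) % m)
  | .store i j => Function.update R (R i) (R j % m)
  | .read i j => Function.update R i (inputAt x (R j) % m)
  | .jz _ _ => R
  | .goto _ => R

/-- the next line -/
def Instr.next (R : ℕ → ℕ) (pc : ℕ) : Instr → ℕ
  | .jz i l => if R i = 0 then l else pc + 1
  | .goto l => l
  | _ => pc + 1

/-- Configurations: line of the program, registers, time used so far. -/
structure Cfg : Type where
  /-- the current line -/
  pc : ℕ
  /-- the registers -/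
  reg : ℕ → ℕ
  /-- the time used -/
  time : ℕ

/-- One step of the program `P` on the input `x` (graphs with `n` vertices). The machine has
halted when `pc` is not a line of the program. -/
def step (M : Model) (P : List Instr) (n : ℕ) (x : List Bool) (c : Cfg) : Cfg :=
  match P[c.pc]? with
  | some a => ⟨a.next c.reg c.pc, a.regs (M.modulus n) x c.reg, c.time + M.cost c.reg a⟩
  | none => c

/-- the start configuration: line `0`, `R 0 = n`, all other registers `0` -/
def startCfg (n : ℕ) : Cfg := ⟨0, fun i => if i = 0 then n else 0, 0⟩

/-- The program `P` for the model `M` decides `≡_k`, and on every pair of graphs with `n` vertices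
it halts within time `T n`; the answer is yes iff `R 0 ≠ 0` at the end. -/
def RamDecidesWL (M : Model) (P : List Instr) (k : ℕ) (T : ℕ → ℕ) : Prop :=
  (∀ a ∈ P, M.Allows a) ∧
  ∀ (n : ℕ) (G H : SimpleGraph (Fin n)), ∃ (s : ℕ) (c : Cfg),
    (step M P n (inputWord G H))^[s] (startCfg n) = c ∧ P.length ≤ c.pc ∧ c.time ≤ T n ∧
      (c.reg 0 ≠ 0 ↔ WLEquiv k G H)

/-- Some deterministic Turing machine or random access machine decides `≡_k` within time `T n` on
all pairs of graphs with `n` vertices. -/
def DecidableInTime (k : ℕ) (T : ℕ → ℕ) : Prop :=
  (∃ (A : FinTM2) (inp : Bool → A.Γ A.k₀) (yes : A.Γ A.k₁), DecidesWL A inp yes k T) ∨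
    ∃ (M : Model) (P : List Instr), RamDecidesWL M P k T

end Vale.Agent.P310Z
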