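import Vale.Agent.Lib.PolyTime.Bitwise
import Vale.Agent.Lib.PolyTime.Lists2
import Vale.Agent.Lib.PolyTime.NatArith2

/-! A universal interpreter for random access machines whose step is polynomial time. -/

namespace Vale.Agent.P310Z

open Function Vale.Agent.Lib.PolyTime

variable {α : Type} [Enc α]

theorem val_serial_land (k : ℕ) : ∀ (x y : Word) (c : Bool), x.length ≤ k → y.length ≤ k →
    val (serial (fun a b _ => a && b) (fun _ _ c => c) k c x y).1 = val x &&& val y := by
  induction k with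
  | zero =>
    intro x y c hx hy
    rw [Nat.le_zero, List.length_eq_zero_iff] at hx hy
    subst hx hy
    simp [serial]
  | succ k ih =>
    intro x y c hx hy
    have := ih x.tail y.tail c (by simp; omega) (by simp; omega)
    simp only [serial, val_cons]
    rw [this, val_eq x, val_eq y]
    have h1 : ∀ (b : Bool) (m : ℕ), b.toNat + 2 * m = Nat.bit b m := by
      intro b m
      rw [Nat.bit_val]; ring
    rw [h1, h1, h1, Nat.land_bit]

theorem pt_land {f g : α → ℕ} (hf : PT ∅ f) (hg : PT ∅ g) : PT ∅ (fun a => f a &&& g a) := by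
  obtain ⟨F, hF, hF'⟩ := hf
  obtain ⟨G, hG, hG'⟩ := hg
  refine PT.of_val (FP.serialOut (fun a b _ => a && b) (fun _ _ c => c) false
    (FP.append hF hG) hF hG) fun a => ?_
  rw [val_serial_land _ _ _ _ (by simp) (by simp), hF', hG', val_enc_nat, val_enc_nat]

theorem pt_lor {f g : α → ℕ} (hf : PT ∅ f) (hg : PT ∅ g) : PT ∅ (fun a => f a ||| g a) :=
  (PT.natXor (PT.natXor hf hg) (pt_land hf hg)).congr fun a => by
    apply Nat.eq_of_testBit_eq
    intro i
    simp only [Nat.testBit_xor, Nat.testBit_and, Nat.testBit_or]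
    cases (f a).testBit i <;> cases (g a).testBit i <;> rfl

theorem pt_shr {f g : α → ℕ} (hf : PT ∅ f) (hg : PT ∅ g) : PT ∅ (fun a => f a >>> g a) :=
  (PT.div hf (PT.pow (PT.const 2) (PT.min hg hf.size)
    (hf.pbd.mono fun _ => min_le_right _ _))).congr fun a => by
    rw [Nat.shiftRight_eq_div_pow]
    rcases le_total (g a) (esize (f a)) with h | h
    · rw [min_eq_left h]
    · rw [min_eq_right h, Nat.div_eq_of_lt (lt_two_pow_esize _), Nat.div_eq_of_lt
        ((lt_two_pow_esize _).trans_le (Nat.pow_le_pow_right (by omega) h))]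

/-- the operation with number `t` -/
def uop (m t a b : ℕ) : ℕ :=
  if t = 0 then a + b else if t = 1 then a + m - b else if t = 2 then a * b
  else if t = 3 then a / b else if t = 4 then a % b else if t = 5 then a &&& b
  else if t = 6 then a ||| b else if t = 7 then a ^^^ b
  else if t = 8 then a * (2 ^ b % max m 1) else if t = 9 then a >>> b
  else if a < b then 1 else 0

theorem pt_uop {m t f g : α → ℕ} (hm : PT ∅ m) (ht : PT ∅ t) (hf : PT ∅ f) (hg : PT ∅ g) :
    PT ∅ (fun a => uop (m a) (t a) (f a) (g a)) := by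
  have e := fun c : ℕ => PT.eqNat ht (PT.const c)
  exact PT.ite (e 0) (hf.add hg) <| PT.ite (e 1) ((hf.add hm).sub hg) <|
    PT.ite (e 2) (hf.mul hg) <| PT.ite (e 3) (hf.div hg) <| PT.ite (e 4) (hf.mod hg) <|
    PT.ite (e 5) (pt_land hf hg) <| PT.ite (e 6) (pt_lor hf hg) <|
    PT.ite (e 7) (PT.natXor hf hg) <| PT.ite (e 8) (hf.mul (PT.powModPos (PT.const 2) hg
      (PT.max hm (PT.const 1)) fun _ => by simp)) <| PT.ite (e 9) (pt_shr hf hg) <|
    PT.ite (hf.lt hg) (PT.const 1) (PT.const 0)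

/-- memory: the first entry with a given address counts -/
abbrev Mem := List (ℕ × ℕ)

/-- the content of a register -/
def get (μ : Mem) (a : ℕ) : ℕ := ((μ.find? fun p => decide (p.1 = a)).getD (0, 0)).2

theorem pt_get {μ : α → Mem} {f : α → ℕ} (hμ : PT ∅ μ) (hf : PT ∅ f) :
    PT ∅ (fun a => get (μ a) (f a)) :=
  ((PT.find? (f := fun a (p : ℕ × ℕ) => decide (p.1 = f a)) hμ
    (PT.eqNat PT.snd'.fst (hf.comp PT.fst'))).optGetD (PT.const ((0, 0) : ℕ × ℕ))).snd

theorem get_cons (μ : Mem) (a v : ℕ) : get ((a, v) :: μ) = update (get μ) a v := by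
  funext b
  rcases eq_or_ne b a with rfl | h
  · simp [get]
  · simp [get, h, h.symm]

theorem get_lt {μ : Mem} {B : ℕ} (hB : 0 < B) (h : ∀ p ∈ μ, p.2 < B) (a : ℕ) : get μ a < B := by
  unfold get
  cases e : μ.find? (fun p => decide (p.1 = a)) with
  | none => exact hB
  | some p => exact h p (List.mem_of_find?_eq_some e)

/-- code of an instruction -/
abbrev Code := ℕ × ℕ × ℕ × ℕ

/-- program, modulus, input -/
abbrev Ctx := List Code × ℕ × List ℕ

/-- states of the interpreter -/
abbrev St := Ctx × ℕ × Mem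

/-- the value written -/
def uval (m : ℕ) (x : List ℕ) (μ : Mem) (a : Code) : ℕ :=
  if a.1 = 11 then a.2.2.1 else if a.1 = 12 then get μ (get μ a.2.2.1)
  else if a.1 = 13 then get μ a.2.2.1 else if a.1 = 14 then x.getD (get μ a.2.2.1) 2
  else uop m a.1 (get μ a.2.2.1) (get μ a.2.2.2)

/-- the new memory -/
def umem (m : ℕ) (x : List ℕ) (μ : Mem) (a : Code) : Mem :=
  if a.1 < 15 then (if a.1 = 13 then get μ a.2.1 else a.2.1, uval m x μ a % m) :: μ else μ

/-- the new line -/
def unext (μ : Mem) (pc : ℕ) (a : Code) : ℕ :=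
  if a.1 = 15 then (if get μ a.2.1 = 0 then a.2.2.1 else pc + 1)
  else if a.1 = 16 then a.2.2.1 else pc + 1

/-- one step of the interpreter -/
def ustep (u : St) : St :=
  (u.1, unext u.2.2 u.2.1 (u.1.1.getD u.2.1 (0, 0, 0, 0)),
    umem u.1.2.1 u.1.2.2 u.2.2 (u.1.1.getD u.2.1 (0, 0, 0, 0)))

theorem pt_ustep : PT ∅ ustep := by
  have ha : PT ∅ fun u : St => u.1.1.getD u.2.1 (0, 0, 0, 0) :=
    PT.getD PT.fst'.fst PT.snd'.fst (PT.const _)
  have hμ : PT ∅ fun u : St => u.2.2 := PT.snd'.snd
  have hm : PT ∅ fun u : St => u.1.2.1 := PT.fst'.snd.fst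
  have hp : PT ∅ fun u : St => u.2.1 + 1 := PT.snd'.fst.add (PT.const 1)
  have e := fun c : ℕ => PT.eqNat ha.fst (PT.const c)
  have hi := pt_get hμ ha.snd.fst
  have hj := pt_get hμ ha.snd.snd.fst
  have hl := pt_get hμ ha.snd.snd.snd
  have hv : PT ∅ fun u : St => uval u.1.2.1 u.1.2.2 u.2.2 (u.1.1.getD u.2.1 (0, 0, 0, 0)) :=
    PT.ite (e 11) ha.snd.snd.fst <| PT.ite (e 12) (pt_get hμ hj) <| PT.ite (e 13) hj <|
      PT.ite (e 14) (PT.getD PT.fst'.snd.snd hj (PT.const 2)) (pt_uop hm ha.fst hj hl)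
  exact PT.fst'.pair (PT.pair
    (PT.ite (e 15) (PT.ite (PT.eqNat hi (PT.const 0)) ha.snd.snd.fst hp)
      (PT.ite (e 16) ha.snd.snd.fst hp))
    (PT.ite (ha.fst.lt (PT.const 15))
      (PT.cons ((PT.ite (e 13) hi ha.snd.fst).pair (hv.mod hm)) hμ) hμ))

/-- nonempty code iff the machine is running -/
def uflag (u : St) : Option Unit := if u.2.1 < u.1.1.length then some () else none

theorem pt_uflag : PT ∅ uflag :=
  PT.ite (PT.snd'.fst.lt PT.fst'.fst.length) (PT.const _) (PT.const _)

/-- the answer -/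
def uout (u : St) : Bool := decide (¬ get u.2.2 0 = 0)

theorem pt_uout : PT ∅ uout :=
  PT.decide_not (PT.eqNat (pt_get PT.snd'.snd (PT.const 0)) (PT.const 0))

/-- the number of vertices, from the length of the input -/
def unum (N : ℕ) : ℕ := (((List.range (N + 1)).find? fun n => decide (2 * (n * n) = N))).getD 0

theorem unum_eq (n : ℕ) : unum (2 * (n * n)) = n := by
  unfold unum
  rcases e : (List.range (2 * (n * n) + 1)).find? fun j => decide (2 * (j * j) = 2 * (n * n))
    with _ | j
  · rw [List.find?_eq_none] at e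
    exact absurd (by simp) (e n (List.mem_range.2 (by nlinarith)))
  · have h := List.find?_some e
    simp only [decide_eq_true_eq] at h
    exact Nat.mul_self_inj.1 (show j * j = n * n by omega)

theorem unum_le (N : ℕ) : unum N ≤ N := by
  unfold unum
  rcases e : (List.range (N + 1)).find? fun j => decide (2 * (j * j) = N) with _ | j
  · exact Nat.zero_le _
  · exact Nat.lt_succ_iff.1 (List.mem_range.1 (List.mem_of_find?_eq_some e))

/-- description of a machine: program, bounded words or not, the constant of the word size -/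
abbrev Desc := List Code × Bool × Un

/-- the start state -/
def uinit (y : Desc × Raw) : St :=
  ((y.1.1, bif y.1.2.1 then 2 ^ (y.1.2.2.v * Nat.size (unum y.2.w.length)) else 0,
    y.2.w.map Bool.toNat), 0, [(0, unum y.2.w.length)])

theorem pt_uinit : PT ∅ uinit := by
  have hl : PT ∅ fun y : Desc × Raw => y.2.w.length := PT.rawLength PT.snd'
  have hlb : PBd fun y : Desc × Raw => y.2.w.length := (PT.snd' (A := ∅)).pbd
  have hn : PT ∅ fun y : Desc × Raw => unum y.2.w.length :=
    (PT.find? (f := fun (y : Desc × Raw) (n : ℕ) => decide (2 * (n * n) = y.2.w.length))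
      (PT.range (hl.add (PT.const 1)) (hlb.add (PBd.const 1)))
      (PT.eqNat (PT.double (PT.snd'.mul PT.snd')) (hl.comp PT.fst'))).optGetD (PT.const 0)
  have hC : PT ∅ fun y : Desc × Raw => y.1.2.2 := PT.fst'.snd.snd
  refine PT.pair (PT.fst'.fst.pair (PT.pair (PT.cond PT.fst'.snd.fst (PT.pow (PT.const 2)
    ((PT.unVal hC).mul hn.natSize) ((PBd.unVal hC).mul (hn.pbd.mono fun y => ?_))) (PT.const 0))
    (PT.map (f := fun _ b => b.toNat) (PT.listOfRaw PT.snd')
      ((PT.cond PT.snd' (PT.const 1) (PT.const 0)).congr fun p => ?_))))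
    ((PT.const 0).pair (PT.cons ((PT.const 0).pair hn) PT.nil))
  · rw [esize_nat]
  · cases p.2 <;> rfl

end Vale.Agent.P310Z
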