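import Vale.Agent.P310.WLDefs
import Vale.Agent.Lib.PolyTime.TM2
import Vale.Agent.Lib.PolyTime.Machine

/-! Unbounded loops of polynomial time steps, and their compilation to Turing machines. -/

namespace Vale.Agent.P310Z

open Function Turing Vale.Agent.P310 Vale.Agent.Lib.PolyTime

/-- push a constant word on stack `0` -/
def pushAll : Word → Prog
  | [] => .skip
  | b :: w => .seq (pushAll w) (.push 0 b)

theorem runs_pushAll (w x : Word) :
    Runs ∅ (pushAll w) (start x []) (w.length + 1) (start (w ++ x) []) := by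
  induction w with
  | nil => exact Runs.skip
  | cons b w ih =>
    refine (ih.seq (Runs.push 0 b)).congr ?_
    funext i
    rcases eq_or_ne i 0 with rfl | hi
    · simp [start]
    · simp [start, hi]

theorem exists_while {init step flag out : Word → Word} (hi : FP ∅ init) (hs : FP ∅ step)
    (hf : FP ∅ flag) (ho : FP ∅ out) : ∃ (U : Prog) (T : ℕ → ℕ), PB T ∧
      ∀ (y : Word) (s M : ℕ), y.length ≤ M → s ≤ M → (∀ j < s, flag (step^[j] (init y)) ≠ []) →
        flag (step^[s] (init y)) = [] → (∀ j ≤ s, (step^[j] (init y)).length ≤ M) →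
        ∃ σ, Runs ∅ U (start y []) (T M) σ ∧ σ 1 = out (step^[s] (init y)) := by
  obtain ⟨pi, wi, ci, -, -, ri⟩ := hi.elim
  obtain ⟨ps, ws, cs, -, -, rs⟩ := hs.elim
  obtain ⟨pf, wf, cf, -, lf, rf⟩ := hf.elim
  obtain ⟨po, wo, co, -, -, ro⟩ := ho.elim
  set body : Prog := .seq (.clear 2) (.seq (ps.rename (rel 3 4 4)) (.seq (.clear 3)
    (.seq (.mvo 4 3 5) (pf.rename (rel 3 2 4))))) with hbody
  have loop : ∀ (k : ℕ) (y : Word) (M : ℕ), (∀ j < k, flag (step^[j] y) ≠ []) →
      flag (step^[k] y) = [] → (∀ j ≤ k, (step^[j] y).length ≤ M) →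
      ∀ s : ℕ → Word, s 1 = [] → s 2 = flag y → s 3 = y → (∀ i, 4 ≤ i → s i = []) →
      ∃ σ, Runs ∅ (.loop 2 body) s (k * (pb cs M + 3 * pb cf M + 10 * M + 5) + 1) σ ∧
        σ 1 = [] ∧ σ 3 = step^[k] y ∧ ∀ i, 4 ≤ i → σ i = [] := by
    intro k
    induction k with
    | zero =>
      intro y M _ h0 _ s h1 h2 h3 h4
      exact ⟨s, (Runs.loop_stop (h2.trans h0)).mono (by omega), h1, h3, h4⟩
    | succ k ih =>
      intro y M hne h0 hM s h1 h2 h3 h4
      have hy : y.length ≤ M := hM 0 (by simp)
      have hsy : (step y).length ≤ M := hM 1 (by simp)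
      have r1 := Runs.clear (A := ∅) (s := s) 2
      set s1 := update s 2 [] with hs1
      have r2 := rs 3 4 4 (by omega) (by omega) (by omega) s1 (by simp [hs1, h4])
        (fun i h1 h2 => by rw [hs1, update_of_ne (by omega)]; exact h4 i (by omega))
      set s2 := update s1 4 (step (s1 3)) with hs2
      have r3 := Runs.clear (A := ∅) (s := s2) 3
      set s3 := update s2 3 [] with hs3
      have r4 := Runs.mvo (A := ∅) (s := s3) (i := 4) (j := 3) (k := 5) (by omega) (by omega)
        (by omega) (by simp [hs3, hs2, hs1, h4 5 (by omega)])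
      set s4 := update (update s3 4 []) 3 (s3 4 ++ s3 3) with hs4
      have e3 : s4 3 = step y := by simp [hs4, hs3, hs2, hs1, h3]
      have e4 : ∀ i, 4 ≤ i → s4 i = [] := fun i hi => by
        rcases eq_or_ne i 4 with rfl | h
        · simp [hs4]
        · rw [hs4, update_of_ne (by omega), update_of_ne h, hs3, update_of_ne (by omega), hs2,
            update_of_ne h, hs1, update_of_ne (by omega)]
          exact h4 i hi
      have r5 := rf 3 2 4 (by omega) (by omega) (by omega) s4 (by simp [hs4, hs3, hs2, hs1])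
        (fun i h1 _ => e4 i (by omega))
      rw [e3] at r5
      set s5 := update s4 2 (flag (step y)) with hs5
      have r6 : Runs ∅ body s (pb cs M + 3 * pb cf M + 10 * M + 4) s5 := by
        refine (r1.seq (r2.seq (r3.seq (r4.seq r5)))).mono ?_
        have hb := pb_mono cs hy
        have hb2 := pb_mono cf hy
        have hb3 := pb_mono cf hsy
        have hb4 := lf y
        simp [hs3, hs2, hs1, h3, h2]
        omega
      obtain ⟨σ, r7, a1, a2, a3⟩ := ih (step y) M
        (fun j hj => by rw [← iterate_succ_apply]; exact hne _ (by omega))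
        (by rw [← iterate_succ_apply]; exact h0)
        (fun j hj => by rw [← iterate_succ_apply]; exact hM _ (by omega)) s5
        (by simp [hs5, hs4, hs3, hs2, hs1, h1]) (by simp [hs5]) (by simp [hs5, e3])
        (fun i hi => by rw [hs5, update_of_ne (by omega)]; exact e4 i hi)
      refine ⟨σ, (Runs.loop_step (h2 ▸ hne 0 (by omega)) r6 r7).mono ?_, a1, a2, a3⟩
      rw [add_mul]
      omega
  refine ⟨.seq (pi.rename (rel 0 3 4)) (.seq (pf.rename (rel 3 2 4)) (.seq (.loop 2 body)
    (po.rename (rel 3 1 4)))), fun M => pb ci M + (pb cf M +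
      ((M * (pb cs M + 3 * pb cf M + 10 * M + 5) + 1) + pb co M)),
    (PB.pb ci).add ((PB.pb cf).add (((PB.id.mul ((((PB.pb cs).add ((PB.const 3).mul
      (PB.pb cf))).add ((PB.const 10).mul PB.id)).add (PB.const 5))).add (PB.const 1)).add
      (PB.pb co))), ?_⟩
  intro y s M hy hsM hne h0 hM
  have e0 : ∀ i, 1 ≤ i → start y [] i = [] := fun i hi => by
    simp [start, show i ≠ 0 by omega]
  have r1 := ri 0 3 4 (by omega) (by omega) (by omega) (start y []) (e0 3 (by omega))
    (fun i h1 _ => e0 i (by omega))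
  rw [show start y [] 0 = y from rfl] at r1
  set s1 := update (start y []) 3 (init y) with hs1
  have r2 := rf 3 2 4 (by omega) (by omega) (by omega) s1 (by simp [hs1, e0])
    (fun i h1 _ => by rw [hs1, update_of_ne (by omega)]; exact e0 i (by omega))
  rw [show s1 3 = init y by simp [hs1]] at r2
  obtain ⟨σ, r3, a1, a2, a3⟩ := loop s (init y) M hne h0 hM (update s1 2 (flag (init y)))
    (by simp [hs1, e0]) (by simp) (by simp [hs1]) (fun i hi => by
      rw [update_of_ne (by omega), hs1, update_of_ne (by omega)]; exact e0 i (by omega))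
  have r4 := ro 3 1 4 (by omega) (by omega) (by omega) σ a1 (fun i h1 _ => a3 i (by omega))
  rw [a2] at r4
  refine ⟨_, (r1.seq (r2.seq (r3.seq r4))).mono ?_, by simp⟩
  have b1 := pb_mono ci hy
  have b2 := pb_mono cf (hM 0 (Nat.zero_le _))
  have b3 := pb_mono co (hM s le_rfl)
  have b4 := Nat.mul_le_mul_right (pb cs M + 3 * pb cf M + 10 * M + 5) hsM
  simp only [iterate_zero, id] at b2 ⊢
  omega

theorem stepsFrom_eq (A : FinTM2) (c : A.Cfg) (n : ℕ) :
    stepsFrom A c n = (flip bind A.step)^[n] (some c) := by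
  induction n with
  | zero => rfl
  | succ n ih => rw [iterate_succ_apply', ← ih]; rfl

open ToTM2 in
/-- A program as a Turing machine, with output stack `1`. -/
theorem exists_tm2 (p : Prog) : ∃ (A : FinTM2) (inp : Bool → A.Γ A.k₀) (yes : A.Γ A.k₁),
    ∀ (x : Word) (t : ℕ) (σ : ℕ → Word), Runs ∅ p (start x []) t σ → ∃ s ≤ 2 * t, ∃ c : A.Cfg,
      stepsFrom A (initList A (x.map inp)) s = some c ∧ c.l = none ∧
        ((c.stk A.k₁).head? = some yes ↔ (σ 1).head? = some true) := by
  classical
  obtain ⟨N, hN⟩ := exists_bounded p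
  have hN' : bounded (N + 1 + 1) p := bounded_mono (by omega) hN
  set R : Set (List Prog) := insert [] (reach p []) with hR
  have h0 : [] ∈ R := Set.mem_insert _ _
  have : Fintype R := ((reach_finite p []).insert []).fintype
  let tm : FinTM2 :=
    { K := Fin (N + 1 + 1)
      k₀ := 0
      k₁ := stk (N + 1) 1
      Γ := fun _ => Bool
      Λ := R
      main := lab R h0 [p]
      σ := Option Bool
      initialState := none
      m := fun l => stmt (N + 1) R h0 l.1 }
  refine ⟨tm, id, true, fun x t σ ⟨t', ht, e⟩ => ?_⟩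
  obtain ⟨n, v', hn, hsteps⟩ := sim (N := N + 1) (R := R) (h0 := h0) e hN' []
    (fun y hy => Set.mem_insert_of_mem _ hy) h0 none
  have hlast : Steps (N + 1) R h0 1 ⟨some (lab R h0 []), v', restr (N + 1) σ⟩
      ⟨none, none, restr (N + 1) σ⟩ := by
    refine steps_one ?_
    rw [lab_of_mem h0]
    simp [stmt]
  have e1 : initList tm (x.map id) =
      ⟨some (lab R h0 [p]), none, restr (N + 1) (start x [])⟩ := by
    unfold initList
    congr 1
    funext k
    by_cases hk : k = 0
    · subst hk
      simp [tm, restr, start]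
    · have : (k : ℕ) ≠ 0 := fun e => hk (Fin.ext e)
      simp [tm, restr, start, hk, this]
  refine ⟨1 + n, by omega, ⟨none, none, restr (N + 1) σ⟩, ?_, rfl, ?_⟩
  · rw [stepsFrom_eq, e1]
    exact hsteps.trans hlast
  · show (restr (N + 1) σ (stk (N + 1) 1)).head? = some true ↔ _
    rw [restr_stk (N + 1) (by omega)]

end Vale.Agent.P310Z
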