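import Vale.Agent.P310Z.Sim
import Vale.Agent.P310Z.While
import Vale.Agent.P310.H853.Plug

/-! Random access machines are simulated by Turing machines with a polynomial overhead whose degree
does not depend on the machine; the lower bound for both kinds of machines. -/

namespace Vale.Agent.P310Z

open Function Turing Filter Vale.Agent.P310 Vale.Agent.Lib.PolyTime

theorem length_inputWord {n : ℕ} (G H : SimpleGraph (Fin n)) :
    (inputWord G H).length = 2 * (n * n) := by
  simp [inputWord, adjBits, List.length_flatMap]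
  ring

theorem step_time_le (M : Model) (P : List Instr) (n : ℕ) (x : List Bool) (c : Cfg) :
    c.time ≤ (step M P n x c).time := by
  unfold step
  cases P[c.pc]? <;> simp

theorem step_halted {M : Model} {P : List Instr} {n : ℕ} {x : List Bool} {c : Cfg}
    (h : P.length ≤ c.pc) : step M P n x c = c := by
  rw [step, List.getElem?_eq_none h]

/-- the bound for the sizes of the states -/
def sizeBound (c z : ℕ) : ℕ :=
  (2 * (z * z) + 2 * z + 1) + z + 2 * pb c (2 * (z * z) + 2 * z + 1) + 2 * (z * z + 2 * z + 2) +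
    (z + 1) * (2 * (3 * (z * z + 2 * z + 2) + 1) + 1) + 2

theorem pb_sizeBound (c : ℕ) : PB (sizeBound c) := by
  have h2 : PB fun z => 2 * z := (PB.const 2).mul PB.id
  have h1 : PB fun z => 2 * (z * z) + 2 * z + 1 :=
    (((PB.const 2).mul (PB.id.mul PB.id)).add h2).add (PB.const 1)
  have h3 : PB fun z => z * z + 2 * z + 2 := ((PB.id.mul PB.id).add h2).add (PB.const 2)
  exact ((((h1.add PB.id).add ((PB.const 2).mul ((PB.pb c).comp h1))).add
    ((PB.const 2).mul h3)).add ((PB.id.add (PB.const 1)).mul (((PB.const 2).mul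
      (((PB.const 3).mul h3).add (PB.const 1))).add (PB.const 1)))).add (PB.const 2)

theorem ram_to_tm : ∃ E : ℕ, ∀ (M : Model) (P : List Instr) (k : ℕ) (T : ℕ → ℕ),
    RamDecidesWL M P k T → ∃ (K : ℕ) (A : FinTM2) (inp : Bool → A.Γ A.k₀) (yes : A.Γ A.k₁),
      DecidesWL A inp yes k fun n => (K + n + T n + 2) ^ E := by
  classical
  obtain ⟨c₀, hc₀⟩ := pt_uinit.pbd
  obtain ⟨I, hI, eI⟩ := pt_uinit
  obtain ⟨S, hS, eS⟩ := pt_ustep
  obtain ⟨F, hF, eF⟩ := pt_uflag
  obtain ⟨O, hO, eO⟩ := pt_uout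
  obtain ⟨U, T₀, hT₀, hU⟩ := exists_while hI hS hF hO
  obtain ⟨E, hE⟩ : PB fun z => 2 * (2 * z + 2 + T₀ (sizeBound c₀ z)) :=
    (PB.const 2).mul ((((PB.const 2).mul PB.id).add (PB.const 2)).add (hT₀.comp (pb_sizeBound c₀)))
  refine ⟨E, fun M P k T ⟨hP, h⟩ => ?_⟩
  obtain ⟨A, inp, yes, hA⟩ := exists_tm2 (.seq (pushAll (pr (enc (desc M P)) [])) U)
  refine ⟨esize (desc M P), A, inp, yes, fun n G H => ?_⟩
  obtain ⟨s₁, c₁, e₁, h₁, h₂, h₃⟩ := h n G H
  set x := inputWord G H with hx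
  have hxl : x.length = 2 * (n * n) := length_inputWord G H
  set K := esize (desc M P) with hK
  set z := K + n + T n with hz
  have hex : ∃ s, P.length ≤ ((step M P n x)^[s] (startCfg n)).pc := ⟨s₁, e₁ ▸ h₁⟩
  set s := Nat.find hex with hs
  have hs1 : s ≤ s₁ := Nat.find_min' hex (e₁ ▸ h₁)
  have e₂ : (step M P n x)^[s] (startCfg n) = c₁ := by
    obtain ⟨d, rfl⟩ := Nat.exists_eq_add_of_le' hs1
    rw [← e₁, iterate_add_apply, iterate_fixed (step_halted (Nat.find_spec hex))]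
  have hlt : ∀ i < s, ((step M P n x)^[i] (startCfg n)).pc < P.length := fun i hi =>
    not_le.1 (Nat.find_min hex hi)
  have hmono : Monotone fun j => ((step M P n x)^[j] (startCfg n)).time :=
    monotone_nat_of_le_succ fun j => by rw [iterate_succ_apply']; exact step_time_le _ _ _ _ _
  have hzz : K * n ≤ z * z := Nat.mul_le_mul (by omega) (by omega)
  have hnn : n * n ≤ z * z := Nat.mul_le_mul (by omega) (by omega)
  have hsim := fun j (hj : j ≤ s) => sim (x := x) (n := n) (b := K * n + K + n + 2) hP (by omega)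
    (Nat.lt_two_pow_self.trans_le (Nat.pow_le_pow_right (by omega) (by omega)))
    ((modulus_le M P n).trans (Nat.pow_le_pow_right (by omega) (by rw [← hK]; omega))) (by omega) j
    fun i hi => hlt i (by omega)
  set y : Desc × Raw := (desc M P, ⟨x⟩) with hy
  have ey : esize y ≤ 2 * (z * z) + 2 * z + 1 := by
    rw [hy, esize_pair, esize_raw]
    simp only
    omega
  have eit : ∀ j, S^[j] (I (enc y)) = enc (ustep^[j] (uinit y)) := fun j => by
    induction j with
    | zero => exact eI y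
    | succ j ih => rw [iterate_succ_apply', iterate_succ_apply', ih, eS]
  have e0 := uinit_eq (M := M) (P := P) hxl
  have hctx := (esize_fst_le (uinit y)).trans ((hc₀ y).trans (pb_mono c₀ ey))
  obtain ⟨μ, c, f1, f2, f3, f4, -⟩ := hsim s le_rfl
  obtain rfl : c = c₁ := f1.symm.trans e₂
  obtain ⟨σ, r, hσ⟩ := hU (enc y) s (sizeBound c₀ z) (ey.trans (by unfold sizeBound; omega))
    (by unfold sizeBound; omega) (fun j hj => by
      obtain ⟨μ, c, g1, g2, -⟩ := hsim j hj.le
      have := hlt j hj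
      rw [eit, eF, e0, g2, uflag, if_pos (by simpa [g1] using this)]
      exact List.cons_ne_nil _ _)
    (by rw [eit, eF, e0, f2, uflag, if_neg (by simpa using h₁)]; rfl) (fun j hj => by
      obtain ⟨μ, c', g1, g2, -, g4, g5, g6, g7⟩ := hsim j hj
      have t1 : c'.time ≤ T n := by
        have := hmono hj
        simp only [g1, f1] at this
        omega
      have t2 : esize μ ≤ μ.length * (2 * (3 * (z * z + 2 * z + 2) + 1) + 1) :=
        esize_list_le fun p hp => by
          have u1 := esize_nat_le (g7 p hp).1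
          have u2 := esize_nat_le (g7 p hp).2
          have u3 := esize_pair p.1 p.2
          simp only [Prod.mk.eta] at u3
          omega
      have t3 := Nat.mul_le_mul_right (2 * (3 * (z * z + 2 * z + 2) + 1) + 1)
        (show μ.length ≤ z + 1 by omega)
      have t4 := esize_nat_le g6
      rw [e0] at hctx
      rw [eit, e0, g2]
      show esize _ ≤ _
      rw [esize_pair, esize_pair c'.pc]
      unfold sizeBound
      simp only at hctx
      omega)
  have r0 := runs_pushAll (pr (enc (desc M P)) []) x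
  rw [show pr (enc (desc M P)) [] ++ x = enc y by
    show _ = pr (enc (desc M P)) x
    rw [pr_eq _ [], pr_eq _ x, List.append_assoc]; rfl] at r0
  obtain ⟨t, ht, d, d1, d2, d3⟩ := hA x _ σ (r0.seq r)
  refine ⟨t, ht.trans (le_trans ?_ (hE z)), d, d1, d2, ?_⟩
  · rw [length_pr, List.length_nil, show (enc (desc M P)).length = K from rfl]
    simp only
    omega
  · rw [d3, hσ, eit, eO, e0, f2, ← h₃, uout, f3]
    simp [enc_bool]

theorem le_of_pow_le {c : ℝ} (hc : 0 < c) {E k K : ℕ} (hk : 4 * (E + 1) / c ≤ k) {T : ℕ → ℕ}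
    (h : ∀ᶠ n : ℕ in atTop, (n : ℝ) ^ (c * k) ≤ (((K + n + T n + 2) ^ E : ℕ) : ℝ)) :
    ∀ᶠ n : ℕ in atTop, (n : ℝ) ^ (c / (2 * (E + 1)) * k) ≤ (T n : ℝ) := by
  filter_upwards [h, eventually_ge_atTop (K + 4)] with n hn hK
  have hK' : (K : ℝ) + 4 ≤ n := by exact_mod_cast hK
  have hK0 : (0 : ℝ) ≤ K := Nat.cast_nonneg K
  have h1 : (1 : ℝ) ≤ n := by linarith
  set a := (n : ℝ) ^ (c / (2 * (E + 1)) * k) with ha
  have h2 : (n : ℝ) ^ (2 : ℝ) ≤ a := by
    refine Real.rpow_le_rpow_of_exponent_le h1 ?_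
    rw [div_le_iff₀ hc] at hk
    rw [div_mul_eq_mul_div, le_div_iff₀ (by positivity)]
    linarith
  rw [Real.rpow_two] at h2
  have h3 : (a * a) ^ (E + 1) = (n : ℝ) ^ (c * k) := by
    rw [ha, ← Real.rpow_add (by linarith), ← Real.rpow_natCast, ← Real.rpow_mul (by linarith)]
    congr 1
    push_cast
    field_simp
    ring
  have h4 : (a * a) ^ (E + 1) ≤ ((K : ℝ) + n + T n + 2) ^ (E + 1) := by
    rw [h3]
    push_cast at hn
    exact hn.trans (pow_le_pow_right₀ (by linarith [Nat.cast_nonneg (α := ℝ) (T n)]) (by omega))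
  have h5 := le_of_pow_le_pow_left₀ (Nat.succ_ne_zero E) (by positivity) h4
  have h6 : 4 * (n : ℝ) ≤ a := by nlinarith
  have h7 : 2 * a ≤ a * a := by nlinarith
  linarith

theorem lowerBound : ∃ c : ℝ, 0 < c ∧ ∃ k₀ : ℕ, ∀ k : ℕ, k₀ ≤ k → ∀ T : ℕ → ℕ,
    DecidableInTime k T → ∀ᶠ n : ℕ in atTop, (n : ℝ) ^ (c * k) ≤ (T n : ℝ) := by
  obtain ⟨c, hc, k₀, h⟩ := strongLowerBound
  obtain ⟨E, hE⟩ := ram_to_tm
  refine ⟨c / (2 * (E + 1)), by positivity, max k₀ ⌈4 * (E + 1) / c⌉₊, fun k hk T hT => ?_⟩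
  have hk' : 4 * (E + 1) / c ≤ k := Nat.ceil_le.1 (le_of_max_le_right hk)
  rcases hT with ⟨A, inp, yes, hA⟩ | ⟨M, P, hP⟩
  · filter_upwards [h k (le_of_max_le_left hk) A inp yes T hA, eventually_ge_atTop 1] with n hn h1
    refine le_trans (Real.rpow_le_rpow_of_exponent_le (by exact_mod_cast h1) ?_) hn
    refine mul_le_mul_of_nonneg_right (div_le_self hc.le ?_) (Nat.cast_nonneg k)
    linarith [Nat.cast_nonneg (α := ℝ) E]
  · obtain ⟨K, A, inp, yes, hA⟩ := hE M P k T hP
    exact le_of_pow_le hc hk' (h k (le_of_max_le_left hk) A inp yes _ hA)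

theorem noSublinear : ¬ ∃ g : ℕ → ℝ, g =o[atTop] (fun k : ℕ => (k : ℝ)) ∧
    ∀ k : ℕ, 2 ≤ k → ∃ T : ℕ → ℕ, DecidableInTime k T ∧
      (fun n : ℕ => (T n : ℝ)) =O[atTop] (fun n : ℕ => (n : ℝ) ^ g k) := by
  obtain ⟨c, hc, k₀, h⟩ := lowerBound
  rintro ⟨g, hg, hall⟩
  have h1 : ∀ᶠ k : ℕ in atTop, ‖g k‖ ≤ c / 2 * ‖(k : ℝ)‖ := hg.def (by positivity)
  obtain ⟨k, hk, hk1, hk2⟩ :=
    (h1.and ((eventually_ge_atTop k₀).and (eventually_ge_atTop 2))).exists
  obtain ⟨T, hA, hT⟩ := hall k hk2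
  obtain ⟨B, hB0, hB⟩ := hT.exists_pos
  have hkpos : (0 : ℝ) < k := by exact_mod_cast (by omega : 0 < k)
  have hgk : g k ≤ c * k / 2 := by
    have := (Real.le_norm_self (g k)).trans hk
    rw [Real.norm_of_nonneg hkpos.le] at this
    linarith
  have h4 : Tendsto (fun n : ℕ => (n : ℝ) ^ (c * k / 2)) atTop atTop :=
    (tendsto_rpow_atTop (by positivity)).comp tendsto_natCast_atTop_atTop
  obtain ⟨n, h5, h6, h7, h8⟩ := ((h4.eventually_gt_atTop B).and ((h k hk1 T hA).and
    (hB.bound.and (eventually_ge_atTop 1)))).exists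
  have hn1 : (1 : ℝ) ≤ n := by exact_mod_cast h8
  rw [Real.norm_of_nonneg (Nat.cast_nonneg _), Real.norm_of_nonneg (by positivity)] at h7
  have h9 := Real.rpow_le_rpow_of_exponent_le hn1 hgk
  have h10 : (n : ℝ) ^ (c * k) = (n : ℝ) ^ (c * k / 2) * (n : ℝ) ^ (c * k / 2) := by
    rw [← Real.rpow_add (by linarith), add_halves]
  nlinarith

end Vale.Agent.P310Z
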