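import Vale.Agent.P310Z.Defs
import Vale.Agent.P310Z.Interp

/-! The interpreter simulates the random access machines; sizes of its states. -/

namespace Vale.Agent.P310Z

open Function Vale.Agent.Lib.PolyTime

/-- number of an operation -/
def Op.num : Op → ℕ
  | .add => 0 | .sub => 1 | .mul => 2 | .div => 3 | .mod => 4 | .land => 5 | .lor => 6
  | .xor => 7 | .shl => 8 | .shr => 9 | .lt => 10

/-- code of an instruction -/
def Instr.code : Instr → Code
  | .const i a => (11, i, a, 0)
  | .op o i j l => (o.num, i, j, l)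
  | .load i j => (12, i, j, 0)
  | .store i j => (13, i, j, 0)
  | .read i j => (14, i, j, 0)
  | .jz i l => (15, i, l, 0)
  | .goto l => (16, 0, l, 0)

/-- description of a machine -/
def desc : Model → List Instr → Desc
  | .word C, P => (P.map Instr.code, true, ⟨C⟩)
  | _, P => (P.map Instr.code, false, ⟨0⟩)

variable {M : Model} {P : List Instr} {n m b : ℕ} {x : List Bool} {μ : Mem} {a : Instr}

theorem desc_fst (M : Model) (P : List Instr) : (desc M P).1 = P.map Instr.code := by
  cases M <;> rfl

theorem uinit_eq (hx : x.length = 2 * (n * n)) : uinit (desc M P, ⟨x⟩) =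
    ((P.map Instr.code, M.modulus n, x.map Bool.toNat), 0, [(0, n)]) := by
  cases M <;> simp [uinit, desc, hx, unum_eq, Model.modulus]

theorem modulus_le (M : Model) (P : List Instr) (n : ℕ) :
    M.modulus n ≤ 2 ^ (esize (desc M P) * n) := by
  cases M with
  | word C =>
    refine Nat.pow_le_pow_right (by omega) (Nat.mul_le_mul ?_ ?_)
    · exact (esize_un ⟨C⟩).symm.le.trans ((esize_snd_le ((true, ⟨C⟩) : Bool × Un)).trans
        (esize_snd_le (desc (.word C) P)))
    · exact Nat.size_le.2 Nat.lt_two_pow_self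
  | _ => exact Nat.zero_le _

theorem code_lt (M : Model) (h : a ∈ P) :
    a.code.2.1 < 2 ^ esize (desc M P) ∧ a.code.2.2.1 < 2 ^ esize (desc M P) := by
  have h1 : esize a.code ≤ esize (desc M P) :=
    (esize_le_of_mem (by rw [desc_fst]; exact List.mem_map_of_mem h)).trans (esize_fst_le _)
  have h2 := esize_snd_le a.code
  have h3 := esize_fst_le a.code.2
  have h4 := esize_snd_le a.code.2
  have h5 := esize_fst_le a.code.2.2
  exact ⟨(lt_two_pow_esize _).trans_le (Nat.pow_le_pow_right (by omega) (by omega)),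
    (lt_two_pow_esize _).trans_le (Nat.pow_le_pow_right (by omega) (by omega))⟩

theorem inputAt_eq (x : List Bool) (a : ℕ) : (x.map Bool.toNat).getD a 2 = inputAt x a := by
  rw [List.getD_eq_getElem?_getD, List.getElem?_map, inputAt]
  cases x[a]? <;> rfl

theorem inputAt_le (x : List Bool) (a : ℕ) : inputAt x a ≤ 2 := by
  unfold inputAt
  rcases x[a]? with _ | _ | _ <;> simp

theorem unext_eq (pc : ℕ) : unext μ pc a.code = a.next (get μ) pc := by
  rcases a with _ | ⟨o, _, _, _⟩ | _ | _ | _ | _ | _
  case op => cases o <;> rfl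
  all_goals rfl

theorem get_umem (ha : M.Allows a) :
    get (umem (M.modulus n) (x.map Bool.toNat) μ a.code) = a.regs (M.modulus n) x (get μ) := by
  rcases a with _ | ⟨o, i, j, l⟩ | _ | _ | ⟨i, j⟩ | _ | _
  case op =>
    cases o
    case shl =>
      cases M with
      | word C =>
        have h : max ((Model.word C).modulus n) 1 = (Model.word C).modulus n :=
          max_eq_left (Nat.two_pow_pos _)
        refine (get_cons _ _ _).trans ?_
        show update (get μ) i (get μ j * (2 ^ get μ l % max _ 1) % _) =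
          update (get μ) i (_ <<< _ % _)
        rw [h, Nat.mul_mod_mod, Nat.shiftLeft_eq]
      | unit => exact absurd rfl ha.2
      | log => exact absurd rfl ha
    all_goals exact get_cons _ _ _
  case read =>
    refine (get_cons _ _ _).trans ?_
    show update (get μ) i ((x.map Bool.toNat).getD _ 2 % _) = _
    rw [inputAt_eq]
    rfl
  case jz => rfl
  case goto => rfl
  all_goals exact get_cons _ _ _

theorem one_le_cost (M : Model) (R : ℕ → ℕ) (a : Instr) : 1 ≤ M.cost R a := by
  cases M <;> simp [Model.cost]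

theorem eval_lt {o : Op} {u v : ℕ} (hu : u < 2 ^ b) (hv : v < 2 ^ b) (h1 : o ≠ .mul)
    (h2 : o ≠ .shl) : o.eval 0 u v < 2 ^ (b + 1) := by
  have h3 := Nat.div_le_self u v
  have h4 := Nat.mod_le u v
  have h5 := Nat.and_le_left (n := u) (m := v)
  have h6 := Nat.or_lt_two_pow hu hv
  have h7 := Nat.xor_lt_two_pow hu hv
  have h8 := Nat.shiftRight_le u v
  rw [pow_succ]
  cases o <;> simp only [Op.eval] <;> first | omega | contradiction | (split_ifs <;> omega)

theorem regs_lt {R : ℕ → ℕ} (ha : M.Allows a) (hb : 2 ≤ b) (hm : M.modulus n ≤ 2 ^ b)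
    (hc : a.code.2.2.1 < 2 ^ b) (hR : ∀ i, R i < 2 ^ b) (i : ℕ) :
    a.regs (M.modulus n) x R i < 2 ^ (b + M.cost R a) := by
  have h1 : 2 ^ (b + 1) ≤ 2 ^ (b + M.cost R a) :=
    Nat.pow_le_pow_right (by omega) (by have := one_le_cost M R a; omega)
  have h0 : 2 ^ b ≤ 2 ^ (b + 1) := Nat.pow_le_pow_right (by omega) (by omega)
  have h2 : 2 ^ 2 ≤ 2 ^ b := Nat.pow_le_pow_right (by omega) hb
  have key : ∀ j v, v < 2 ^ (b + M.cost R a) → update R j v i < 2 ^ (b + M.cost R a) := by
    intro j v hv
    rcases eq_or_ne i j with rfl | h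
    · rwa [update_self]
    · rw [update_of_ne h]; have := hR i; omega
  have key2 : ∀ j v, v < 2 ^ b → update R j (v % M.modulus n) i < 2 ^ (b + M.cost R a) :=
    fun j v hv => key j _ (by have := Nat.mod_le v (M.modulus n); omega)
  rcases a with _ | ⟨o, k, j, l⟩ | _ | _ | ⟨k, j⟩ | _ | _
  · exact key2 _ _ hc
  · refine key _ _ ?_
    cases M with
    | word C => have := Nat.mod_lt (o.eval ((Model.word C).modulus n) (R j) (R l))
                  (show 0 < (Model.word C).modulus n from Nat.two_pow_pos _)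
                omega
    | unit => exact (Nat.mod_le _ _).trans_lt ((eval_lt (hR j) (hR l) ha.1 ha.2).trans_le h1)
    | log =>
      refine (Nat.mod_le _ _).trans_lt ?_
      rcases eq_or_ne o .mul with rfl | ho
      · refine (Nat.mul_lt_mul'' (Nat.lt_size_self (R j)) (Nat.lt_size_self (R l))).trans_le ?_
        rw [← pow_add]
        exact Nat.pow_le_pow_right (by omega) (by simp [Model.cost, Instr.operands]; omega)
      · exact (eval_lt (hR j) (hR l) ho ha).trans_le h1
  · exact key2 _ _ (hR _)
  · exact key2 _ _ (hR _)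
  · exact key2 _ _ (by have := inputAt_le x (R j); omega)
  all_goals exact (hR i).trans_le (h0.trans h1)

theorem next_lt {R : ℕ → ℕ} {pc : ℕ} (hc : a.code.2.2.1 < 2 ^ b) (hp : pc < 2 ^ b) :
    a.next R pc < 2 ^ (b + 1) := by
  rw [pow_succ]
  cases a <;> simp only [Instr.next, Instr.code] at hc ⊢ <;> first | omega | (split_ifs <;> omega)

theorem umem_cases (m : ℕ) (y : List ℕ) (μ : Mem) (c : Code) : umem m y μ c = μ ∨
    ∃ i v, (i = get μ c.2.1 ∨ i = c.2.1) ∧ umem m y μ c = (i, v) :: μ := by
  unfold umem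
  split_ifs
  · exact Or.inr ⟨_, _, Or.inl rfl, rfl⟩
  · exact Or.inr ⟨_, _, Or.inr rfl, rfl⟩
  · exact Or.inl rfl

/-- The simulation, with bounds for all numbers. -/
theorem sim (hP : ∀ a ∈ P, M.Allows a) (hb : 2 ≤ b) (hn : n < 2 ^ b) (hm : M.modulus n ≤ 2 ^ b)
    (hK : esize (desc M P) ≤ b) (j : ℕ)
    (hj : ∀ i < j, ((step M P n x)^[i] (startCfg n)).pc < P.length) :
    ∃ μ c, (step M P n x)^[j] (startCfg n) = c ∧
      ustep^[j] ((P.map Instr.code, M.modulus n, x.map Bool.toNat), 0, [(0, n)]) =
        ((P.map Instr.code, M.modulus n, x.map Bool.toNat), c.pc, μ) ∧ get μ = c.reg ∧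
      j ≤ c.time ∧ μ.length ≤ j + 1 ∧ c.pc < 2 ^ (b + c.time) ∧
      ∀ p ∈ μ, p.1 < 2 ^ (b + c.time) ∧ p.2 < 2 ^ (b + c.time) := by
  induction j with
  | zero =>
    refine ⟨_, _, rfl, rfl, ?_, le_rfl, le_rfl, Nat.two_pow_pos _, fun p hp => ?_⟩
    · rw [get_cons]
      funext i
      rcases eq_or_ne i 0 with rfl | h
      · rfl
      · simp [startCfg, h, get]
    · rw [List.mem_singleton.1 hp]
      exact ⟨Nat.two_pow_pos _, hn⟩
  | succ j ih =>
    obtain ⟨μ, c, e1, e2, e3, h1, h2, h3, h4⟩ := ih fun i hi => hj i (by omega)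
    have hpc : c.pc < P.length := e1 ▸ hj j (by omega)
    have ha := List.getElem_mem hpc
    set a := P[c.pc] with hadef
    have e4 : (P.map Instr.code).getD c.pc (0, 0, 0, 0) = a.code := by
      rw [List.getD_eq_getElem _ _ (by simpa using hpc), List.getElem_map]
    have e5 : step M P n x c = ⟨a.next c.reg c.pc, a.regs (M.modulus n) x c.reg,
        c.time + M.cost c.reg a⟩ := by
      rw [step, List.getElem?_eq_getElem hpc]
    have hc := one_le_cost M c.reg a
    have p1 : 2 ^ b ≤ 2 ^ (b + c.time) := Nat.pow_le_pow_right (by omega) (by omega)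
    have p2 : 2 ^ esize (desc M P) ≤ 2 ^ b := Nat.pow_le_pow_right (by omega) hK
    have p3 : 2 ^ (b + c.time + 1) ≤ 2 ^ (b + (c.time + M.cost c.reg a)) :=
      Nat.pow_le_pow_right (by omega) (by omega)
    have p4 : 2 ^ (b + c.time) ≤ 2 ^ (b + c.time + 1) :=
      Nat.pow_le_pow_right (by omega) (by omega)
    obtain ⟨k1, k2⟩ := code_lt M ha
    have hR : ∀ i, c.reg i < 2 ^ (b + c.time) := fun i =>
      e3 ▸ get_lt (Nat.two_pow_pos _) (fun p hp => (h4 p hp).2) i
    have e6 := get_umem (n := n) (x := x) (μ := μ) (hP a ha)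
    have hR' := regs_lt (x := x) (n := n) (b := b + c.time) (hP a ha) (by omega) (by omega)
      (by omega) hR
    refine ⟨umem (M.modulus n) (x.map Bool.toNat) μ a.code, _, by rw [iterate_succ_apply', e1, e5],
      ?_, by rw [e6, e3], by simp only; omega, ?_,
      (next_lt (a := a) (b := b + c.time) (by omega) h3).trans_le p3, ?_⟩
    · rw [iterate_succ_apply', e2, ustep]
      simp only [e4, unext_eq, e3]
    · rcases umem_cases (M.modulus n) (x.map Bool.toNat) μ a.code with e | ⟨i, v, -, e⟩
      · rw [e]; omega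
      · rw [e, List.length_cons]; omega
    · simp only
      rcases umem_cases (M.modulus n) (x.map Bool.toNat) μ a.code with e | ⟨i, v, hi, e⟩
      · rw [e]
        intro p hp
        have := h4 p hp
        omega
      · rw [e] at e6 ⊢
        intro p hp
        rcases List.mem_cons.1 hp with rfl | hp
        · have h5 := hR' i
          rw [← e3, ← e6, get_cons, update_self, e3, add_assoc] at h5
          have h6 := hR a.code.2.1
          rw [e3] at hi
          exact ⟨by simp only; omega, h5⟩
        · have := h4 p hp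
          omega

end Vale.Agent.P310Z
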